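import Vale.Agent.P196.Amen.Generic

/-!
P196, module A, stage one: products of finitely supported vectors with possibly infinite alphabets.
-/

noncomputable section

namespace Vale.Agent.P196.Amen.Vec

open Finset Finsupp

variable {ι κ α β : Type} [Fintype ι] [Fintype κ]

open scoped Classical in
/-- The product of finitely supported vectors. -/
def prodVec (p : ι → α →₀ ℝ) : (ι → α) →₀ ℝ :=
  Finsupp.onFinset (Fintype.piFinset fun i => (p i).support) (fun ω => ∏ i, p i (ω i))
    fun _ h => Fintype.mem_piFinset.2 fun i =>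
      Finsupp.mem_support_iff.2 fun h' => h (Finset.prod_eq_zero (Finset.mem_univ i) h')

theorem prodVec_apply (p : ι → α →₀ ℝ) (ω : ι → α) : prodVec p ω = ∏ i, p i (ω i) := rfl

theorem mem_support_prodVec {p : ι → α →₀ ℝ} {ω : ι → α} (h : ω ∈ (prodVec p).support) (i : ι) :
    ω i ∈ (p i).support := by
  classical
  exact Fintype.mem_piFinset.1 (Finsupp.support_onFinset_subset h) i

theorem isProb_prodVec {p : ι → α →₀ ℝ} (h : ∀ i, IsProb (p i)) : IsProb (prodVec p) := by
  classical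
  refine ⟨fun ω => Finset.prod_nonneg fun i _ => (h i).nonneg _, ?_⟩
  rw [prodVec, Finsupp.onFinset_sum _ fun _ => rfl, ← Finset.prod_univ_sum (fun i => (p i).support)
    fun i a => p i a]
  exact Finset.prod_eq_one fun i _ => (h i).mass

/-- The marginal of a product on injectively chosen, relabelled coordinates. -/
theorem mapDomain_prodVec {σ : κ → ι} (hσ : Function.Injective σ) (e : κ → α → β)
    {p : ι → α →₀ ℝ} (hp : ∀ i, (p i).sum (fun _ a => a) = 1) :
    mapDomain (fun ω d => e d (ω (σ d))) (prodVec p) =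
      prodVec fun d => mapDomain (e d) (p (σ d)) := by
  classical
  have hmap : ∀ d b, mapDomain (e d) (p (σ d)) b =
      ∑ a ∈ (p (σ d)).support, if e d a = b then p (σ d) a else 0 := by
    intro d b
    rw [mapDomain, Finsupp.sum_apply, Finsupp.sum]
    exact Finset.sum_congr rfl fun a _ => by rw [Finsupp.single_apply]
  ext η
  rw [prodVec_apply, mapDomain, Finsupp.sum_apply]
  rw [prodVec, Finsupp.onFinset_sum _ fun _ => by simp,
    Finset.sum_congr rfl fun ω _ => show
      (single (fun d => e d (ω (σ d))) (∏ i, p i (ω i))) η =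
        ∏ i, (p i (ω i) * ∏ d with σ d = i, if e d (ω i) = η d then (1 : ℝ) else 0) by
      rw [Finset.prod_mul_distrib, Finsupp.single_apply]
      have hfib : (∏ i, ∏ d with σ d = i, if e d (ω i) = η d then (1 : ℝ) else 0) =
          ∏ d, if e d (ω (σ d)) = η d then (1 : ℝ) else 0 := by
        rw [← Finset.prod_fiberwise Finset.univ σ fun d =>
          if e d (ω (σ d)) = η d then (1 : ℝ) else 0]
        refine Finset.prod_congr rfl fun i _ => Finset.prod_congr rfl fun d hd => ?_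
        rw [(Finset.mem_filter.1 hd).2]
      rw [hfib, Finset.prod_boole]
      simp [funext_iff, mul_ite]]
  rw [← Finset.prod_univ_sum (fun i => (p i).support)
    fun i a => p i a * ∏ d with σ d = i, if e d a = η d then (1 : ℝ) else 0,
    ← Finset.prod_subset (Finset.subset_univ (Finset.univ.image σ)),
    Finset.prod_image fun x _ y _ h => hσ h]
  · refine Finset.prod_congr rfl fun d _ => ?_
    rw [hmap]
    refine Finset.sum_congr rfl fun a _ => ?_
    rw [show (Finset.univ.filter fun x => σ x = σ d) = {d} by ext x; simp [hσ.eq_iff],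
      Finset.prod_singleton, mul_ite, mul_one, mul_zero]
  · intro i _ hi
    rw [show (Finset.univ.filter fun d => σ d = i) = ∅ by
      ext d
      simp only [Finset.mem_filter, Finset.mem_univ, true_and, Finset.notMem_empty, iff_false]
      exact fun h => hi (Finset.mem_image.2 ⟨d, Finset.mem_univ _, h⟩)]
    simpa [Finsupp.sum] using hp i

/-- Squares of amplitudes. -/
def sq (f : α →₀ ℝ) : α →₀ ℝ := f.mapRange (· ^ 2) (by norm_num)

theorem sq_apply (f : α →₀ ℝ) (a : α) : sq f a = f a ^ 2 := rfl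

theorem sum_sq_eq {f : α →₀ ℝ} {s : Finset α} (h : f.support ⊆ s) :
    ((sq f).sum fun _ a => a) = ∑ a ∈ s, f a ^ 2 :=
  Finsupp.sum_of_support_subset _ ((Finsupp.support_mapRange).trans h) _ fun _ _ => rfl

theorem isProb_sq {f : α →₀ ℝ} (h : ((sq f).sum fun _ a => a) = 1) : IsProb (sq f) :=
  ⟨fun _ => sq_nonneg _, h⟩

/-- Products of nearby amplitude vectors are close in the norm of summable functions. -/
theorem n1_prodVec_sub_le {f g : ι → α →₀ ℝ} (hf : ∀ i, ((sq (f i)).sum fun _ a => a) = 1)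
    (hg : ∀ i, ((sq (g i)).sum fun _ a => a) = 1) (hf0 : ∀ i a, 0 ≤ f i a)
    (hg0 : ∀ i a, 0 ≤ g i a) {δ : ι → ℝ}
    (hδ : ∀ i, ((sq (f i - g i)).sum fun _ a => a) ≤ δ i) :
    n1 (prodVec (fun i => sq (f i)) - prodVec fun i => sq (g i)) ≤ 2 * √(∑ i, δ i) := by
  classical
  set s : ι → Finset α := fun i => (f i).support ∪ (g i).support
  set t := Fintype.piFinset s with ht
  set F : (ι → α) → ℝ := fun ω => ∏ i, f i (ω i)
  set G : (ι → α) → ℝ := fun ω => ∏ i, g i (ω i)
  have hsupp : (prodVec (fun i => sq (f i)) - prodVec fun i => sq (g i)).support ⊆ t := by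
    refine Finsupp.support_sub.trans (Finset.union_subset ?_ ?_) <;> intro ω hω <;>
      refine Fintype.mem_piFinset.2 fun i => ?_ <;>
      have := Finsupp.support_mapRange (mem_support_prodVec hω i)
    · exact Finset.mem_union_left _ this
    · exact Finset.mem_union_right _ this
  have hpt : ∀ ω, (prodVec (fun i => sq (f i)) - prodVec fun i => sq (g i)) ω =
      (F ω - G ω) * (F ω + G ω) := fun ω => by
    simp only [Finsupp.sub_apply, prodVec_apply, sq_apply, F, G, Finset.prod_pow]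
    ring
  have hone : ∀ (u : ι → α →₀ ℝ), (∀ i, ((sq (u i)).sum fun _ a => a) = 1) →
      (∀ i, (u i).support ⊆ s i) → ∑ ω ∈ t, (∏ i, u i (ω i)) ^ 2 = 1 := by
    intro u hu hs
    simp only [← Finset.prod_pow]
    rw [ht, ← Finset.prod_univ_sum s fun i a => u i a ^ 2]
    exact Finset.prod_eq_one fun i _ => (sum_sq_eq (hs i)).symm.trans (hu i)
  have hF := hone f hf fun i => Finset.subset_union_left
  have hG := hone g hg fun i => Finset.subset_union_right
  set b : ι → ℝ := fun i => ∑ a ∈ s i, f i a * g i a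
  have hb0 : ∀ i, 0 ≤ b i := fun i => Finset.sum_nonneg fun a _ => mul_nonneg (hf0 i a) (hg0 i a)
  have hbd : ∀ i, 1 - δ i / 2 ≤ b i ∧ b i ≤ 1 := by
    intro i
    have h1 : ∑ a ∈ s i, (f i a - g i a) ^ 2 = 2 - 2 * b i := by
      simp only [sub_sq, Finset.sum_add_distrib, Finset.sum_sub_distrib, mul_assoc,
        ← Finset.mul_sum, b]
      rw [← sum_sq_eq Finset.subset_union_left, hf, ← sum_sq_eq Finset.subset_union_right, hg]
      ring
    have h2 : ((sq (f i - g i)).sum fun _ a => a) = ∑ a ∈ s i, (f i a - g i a) ^ 2 :=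
      sum_sq_eq Finsupp.support_sub
    constructor
    · linarith [hδ i, h2]
    · linarith [Finset.sum_nonneg (f := fun a => (f i a - g i a) ^ 2) fun a (_ : a ∈ s i) =>
        sq_nonneg _]
  have hprod : ∀ u : Finset ι, 1 - ∑ i ∈ u, δ i / 2 ≤ ∏ i ∈ u, b i := by
    intro u
    induction u using Finset.induction_on with
    | empty => simp
    | @insert a u ha ih =>
      rw [Finset.sum_insert ha, Finset.prod_insert ha]
      have h1 : ∏ i ∈ u, b i ≤ 1 := Finset.prod_le_one (fun i _ => hb0 i) fun i _ => (hbd i).2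
      nlinarith [hbd a]
  have hdiff : ∑ ω ∈ t, |F ω - G ω| ^ 2 ≤ ∑ i, δ i := by
    simp only [sq_abs, sub_sq, Finset.sum_add_distrib, Finset.sum_sub_distrib, mul_assoc,
      ← Finset.mul_sum, F, G, ← Finset.prod_mul_distrib]
    rw [hF, hG, ht, ← Finset.prod_univ_sum s fun i a => f i a * g i a]
    have := hprod Finset.univ
    rw [← Finset.sum_div] at this
    linarith
  have hsum : ∑ ω ∈ t, |F ω + G ω| ^ 2 ≤ 4 := by
    calc ∑ ω ∈ t, |F ω + G ω| ^ 2 ≤ ∑ ω ∈ t, (2 * F ω ^ 2 + 2 * G ω ^ 2) :=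
          Finset.sum_le_sum fun ω _ => by rw [sq_abs]; nlinarith [sq_nonneg (F ω - G ω)]
      _ = 4 := by rw [Finset.sum_add_distrib, ← Finset.mul_sum, ← Finset.mul_sum, hF, hG]; norm_num
  rw [n1_eq_sum hsupp, Finset.sum_congr rfl fun ω _ => by rw [hpt, abs_mul]]
  refine (Real.sum_mul_le_sqrt_mul_sqrt t _ _).trans ?_
  calc √(∑ ω ∈ t, |F ω - G ω| ^ 2) * √(∑ ω ∈ t, |F ω + G ω| ^ 2)
      ≤ √(∑ i, δ i) * √4 := mul_le_mul (Real.sqrt_le_sqrt hdiff) (Real.sqrt_le_sqrt hsum)
        (Real.sqrt_nonneg _) (Real.sqrt_nonneg _)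
    _ = _ := by rw [show (4 : ℝ) = 2 ^ 2 by norm_num, Real.sqrt_sq zero_le_two]; ring

/-- The amplitude vector of a coin which gives `1` with amplitude proportional to `t`. -/
def coin (t : ℝ) : ℤ →₀ ℝ :=
  single 1 (t / √(t ^ 2 + (1 - t) ^ 2)) + single 0 ((1 - t) / √(t ^ 2 + (1 - t) ^ 2))

theorem coin_apply (t : ℝ) :
    coin t 1 = t / √(t ^ 2 + (1 - t) ^ 2) ∧ coin t 0 = (1 - t) / √(t ^ 2 + (1 - t) ^ 2) ∧
      (coin t).support ⊆ {0, 1} := by
  classical
  refine ⟨by simp [coin], by simp [coin], fun a ha => ?_⟩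
  by_contra h
  simp only [Finset.mem_insert, Finset.mem_singleton, not_or] at h
  rw [Finsupp.mem_support_iff, coin, Finsupp.add_apply, Finsupp.single_apply,
    Finsupp.single_apply, if_neg (Ne.symm h.2), if_neg (Ne.symm h.1), add_zero] at ha
  exact ha rfl

theorem coin_norm_pos (t : ℝ) : (1 : ℝ) / 2 ≤ t ^ 2 + (1 - t) ^ 2 := by
  nlinarith [sq_nonneg (t - 1 / 2)]

theorem sum_sq_coin (t : ℝ) : ((sq (coin t)).sum fun _ a => a) = 1 := by
  obtain ⟨h1, h0, hs⟩ := coin_apply t
  have := coin_norm_pos t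
  rw [sum_sq_eq hs, Finset.sum_insert (by simp), Finset.sum_singleton, h1, h0, div_pow, div_pow,
    Real.sq_sqrt (by linarith), ← add_div, add_comm ((1 - t) ^ 2), div_self (by linarith)]

theorem coin_nonneg {t : ℝ} (h0 : 0 ≤ t) (h1 : t ≤ 1) (a : ℤ) : 0 ≤ coin t a := by
  classical
  rw [coin, Finsupp.add_apply, Finsupp.single_apply, Finsupp.single_apply]
  have : 0 ≤ 1 - t := by linarith
  split_ifs <;> positivity

theorem sum_sq_coin_sub (t u : ℝ) :
    ((sq (coin t - coin u)).sum fun _ a => a) ≤ 8 * (t - u) ^ 2 := by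
  obtain ⟨t1, t0, ts⟩ := coin_apply t
  obtain ⟨u1, u0, us⟩ := coin_apply u
  rw [sum_sq_eq (s := {0, 1}) (Finsupp.support_sub.trans (Finset.union_subset ts us)),
    Finset.sum_insert (by simp), Finset.sum_singleton, Finsupp.sub_apply, Finsupp.sub_apply,
    t1, t0, u1, u0]
  have ht := coin_norm_pos t
  have hu := coin_norm_pos u
  set a := √(t ^ 2 + (1 - t) ^ 2) with ha
  set b := √(u ^ 2 + (1 - u) ^ 2) with hb
  have ha2 : a ^ 2 = t ^ 2 + (1 - t) ^ 2 := Real.sq_sqrt (by linarith)
  have hb2 : b ^ 2 = u ^ 2 + (1 - u) ^ 2 := Real.sq_sqrt (by linarith)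
  have ha0 : 0 < a := Real.sqrt_pos.2 (by linarith)
  have hb0 : 0 < b := Real.sqrt_pos.2 (by linarith)
  have key : ((1 - t) / a - (1 - u) / b) ^ 2 + (t / a - u / b) ^ 2 =
      ((t - u) ^ 2 + (1 - t - (1 - u)) ^ 2 - (a - b) ^ 2) / (a * b) := by
    field_simp
    linear_combination -(b ^ 2) * ha2 - a ^ 2 * hb2 + (a * b) * (ha2 + hb2)
  rw [key, div_le_iff₀ (by positivity)]
  have hab : 1 / 2 ≤ a * b := by
    have h : (1 / 2 : ℝ) ^ 2 ≤ (a * b) ^ 2 := by rw [mul_pow, ha2, hb2]; nlinarith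
    nlinarith [mul_pos ha0 hb0]
  nlinarith [sq_nonneg (a - b), mul_le_mul_of_nonneg_left hab (sq_nonneg (t - u))]

end Vale.Agent.P196.Amen.Vec
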