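import Vale.Agent.P196.Amen.One.Geom
import Vale.Agent.P196.Amen.Generic
import Vale.Agent.P196.Amen.One.Product

/-!
P196, module A, stage one: the front described by coins and positions on the atoms of a band.
-/

noncomputable section

namespace Vale.Agent.P196.SFT.One

variable (S : SFT) (O : S.Odometer) (ξ : ∀ n, ZMod (O.Q n))

/-- The data of a band of radius `R`. -/
structure Band where
  n : ℕ
  m : ℕ
  R : ℕ
  ρ : ℕ
  w : ℕ
  E : Finset (ZMod (O.Q m))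
  r : ℕ
  r_pos : 0 < r
  r_R : 32 * r < R
  w_ρ : 2 * (w + 32 * r + 1) ≤ ρ
  ρ_Q : 10 * ρ < O.Q m
  sep : ∀ e ∈ E, ∀ e' ∈ E, e ≠ e' → ∀ d : ℤ, |d| ≤ 5 * ρ → e + (d : ZMod (O.Q m)) ≠ e'
  periodic : ∀ z ∈ O.fibre₁ ξ, ∀ z' ∈ O.fibre₁ ξ, (O.pos m z).2 = (O.pos m z').2 →
    (∀ e ∈ E, ∀ d : ℤ, |d| ≤ w → e + (d : ZMod (O.Q m)) ≠ (O.pos m z).2) →
    ∀ i i' : ℤ, |i| ≤ R → |i'| ≤ R → (O.Q n : ℤ) ∣ (i - i') →
      S.AgreeOn (box (32 * r)) (S.act (i, 0) z) (S.act (i', 0) z')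

variable {S O ξ}

namespace Band

variable (B : Band S O ξ) (k : ℕ)

/-- The half-width of the fronts. -/
def L : ℕ := B.R / 2

/-- The half-width of the band which is read. -/
def R₀ : ℕ := B.L + 2 * B.r

/-- The window of a split atom. -/
def win : Finset V := rect (B.R + 32 * B.r) (2 * B.ρ + 32 * B.r)

/-- The patterns over a class. -/
def pats (e : ZMod (O.Q B.m)) : Set (↥B.win → S.A) :=
  (fun z : S.X => fun u : ↥B.win => z.1 u.1) '' {z | z ∈ O.fibre₁ ξ ∧ (O.pos B.m z).2 = e}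

/-- Classes of unsplit atoms. -/
abbrev U : Type := Fin k × ZMod (O.Q B.n) × ZMod (O.Q B.m)

/-- Split atoms. -/
abbrev P : Type := Σ e : ↥B.E, Fin k × ↥(Finset.Icc (-(B.R : ℤ)) B.R) ×
  ↥(Finset.Icc (-(B.ρ : ℤ)) B.ρ) × ↥(B.pats e.1)

/-- The coordinates: coins, unsplit fronts, split fronts. -/
abbrev I : Type := B.U k ⊕ B.U k ⊕ B.P k

instance (B : Band S O ξ) : NeZero (O.Q B.n) := ⟨(O.Q_pos _).ne'⟩

instance (B : Band S O ξ) : NeZero (O.Q B.m) := ⟨(O.Q_pos _).ne'⟩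

instance : Fintype (B.P k) := Fintype.ofFinite _

/-- The class lies within `s` of the exceptional set. -/
def Near (c : ZMod (O.Q B.m)) (s : ℕ) : Prop :=
  ∃ e ∈ B.E, ∃ d : ℤ, |d| ≤ s ∧ e + (d : ZMod (O.Q B.m)) = c

variable {k}

theorem site_unique {e e' : ZMod (O.Q B.m)} (he : e ∈ B.E) (he' : e' ∈ B.E) {d d' : ℤ}
    (hd : |d| ≤ 2 * B.ρ) (hd' : |d'| ≤ 2 * B.ρ)
    (h : e + (d : ZMod (O.Q B.m)) = e' + (d' : ZMod (O.Q B.m))) : e = e' ∧ d = d' := by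
  have hb : |d - d'| ≤ 4 * B.ρ := (abs_sub _ _).trans (by linarith)
  have h' : e + ((d - d' : ℤ) : ZMod (O.Q B.m)) = e' := by
    push_cast
    linear_combination h
  by_cases hee : e = e'
  · refine ⟨hee, ?_⟩
    rw [← hee, add_eq_left, ZMod.intCast_zmod_eq_zero_iff_dvd] at h'
    by_contra hne
    have := Nat.le_of_dvd (Int.natAbs_pos.2 (sub_ne_zero.2 hne)) (Int.natCast_dvd.1 h')
    rw [Int.abs_eq_natAbs] at hb
    have := B.ρ_Q
    omega
  · exact absurd h' (B.sep e he e' he' hee _ (hb.trans (by linarith [Int.natCast_nonneg B.ρ])))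

theorem near_mono {c : ZMod (O.Q B.m)} {s t : ℕ} (h : B.Near c s) (hst : s ≤ t) : B.Near c t := by
  obtain ⟨e, he, d, hd, hc⟩ := h
  exact ⟨e, he, d, hd.trans (by exact_mod_cast hst), hc⟩

theorem near_add {c : ZMod (O.Q B.m)} {s : ℕ} (h : B.Near c s) {b : ℤ} (hb : |b| ≤ (B.r : ℤ)) :
    B.Near (c + (b : ZMod (O.Q B.m))) (s + B.r) := by
  obtain ⟨e, he, d, hd, hc⟩ := h
  refine ⟨e, he, d + b, (abs_add_le _ _).trans (by push_cast; linarith), ?_⟩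
  rw [← hc]
  push_cast
  ring

open scoped Classical in
/-- The offset of a class from the exceptional set, `ρ + 1` if there is none. -/
def off (c : ZMod (O.Q B.m)) : ℤ :=
  if h : B.Near c B.ρ then h.choose_spec.2.choose else B.ρ + 1

theorem off_eq {e : ZMod (O.Q B.m)} (he : e ∈ B.E) {d : ℤ} (hd : |d| ≤ (B.ρ : ℤ)) :
    B.off (e + (d : ZMod (O.Q B.m))) = d := by
  have h : B.Near (e + (d : ZMod (O.Q B.m))) B.ρ := ⟨e, he, d, hd, rfl⟩
  rw [off, dif_pos h]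
  have hρ : (0 : ℤ) ≤ B.ρ := Int.natCast_nonneg _
  exact (B.site_unique h.choose_spec.1 he (h.choose_spec.2.choose_spec.1.trans (by linarith))
    (hd.trans (by linarith)) h.choose_spec.2.choose_spec.2).2

/-- The amplitude parameter of a coin. -/
def θ (c : ZMod (O.Q B.m)) : ℝ :=
  max 0 (min 1 (((B.ρ : ℝ) - 2 * B.r - |(B.off c : ℝ)|) / ((B.ρ : ℝ) - 4 * B.r - B.w)))

theorem θ_den : (B.ρ : ℝ) / 2 ≤ (B.ρ : ℝ) - 4 * B.r - B.w := by
  have : (2 : ℝ) * (B.w + 32 * B.r + 1) ≤ B.ρ := by exact_mod_cast B.w_ρ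
  linarith [(Nat.cast_nonneg B.r : (0 : ℝ) ≤ B.r)]

theorem ρ_pos : (0 : ℝ) < B.ρ := by
  have := B.w_ρ
  exact_mod_cast (by omega : 0 < B.ρ)

theorem θ_mem (c : ZMod (O.Q B.m)) : 0 ≤ B.θ c ∧ B.θ c ≤ 1 :=
  ⟨le_max_left _ _, max_le zero_le_one (min_le_left _ _)⟩

theorem θ_eq_one {c : ZMod (O.Q B.m)} (h : B.Near c (B.w + 2 * B.r)) : B.θ c = 1 := by
  obtain ⟨e, he, d, hd, rfl⟩ := h
  have hw := B.w_ρ
  rw [θ, B.off_eq he (hd.trans (by exact_mod_cast (by omega : B.w + 2 * B.r ≤ B.ρ)))]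
  have hd' : |(d : ℝ)| ≤ (B.w : ℝ) + 2 * B.r := by
    rw [← Int.cast_abs]
    exact_mod_cast hd
  have hden := B.θ_den
  have := B.ρ_pos
  rw [min_eq_left ((one_le_div (by linarith)).2 (by linarith)), max_eq_right zero_le_one]

theorem site_of_θ_ne_zero {c : ZMod (O.Q B.m)} (h : B.θ c ≠ 0) :
    ∃ e ∈ B.E, ∃ d : ℤ, |d| + 2 * B.r < B.ρ ∧ e + (d : ZMod (O.Q B.m)) = c := by
  have hpos : |B.off c| + 2 * B.r < B.ρ := by
    by_contra hle
    refine h ?_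
    rw [θ, max_eq_left]
    refine (min_le_right _ _).trans (div_nonpos_of_nonpos_of_nonneg ?_ ?_)
    · have : (B.ρ : ℝ) ≤ |(B.off c : ℝ)| + 2 * B.r := by
        rw [← Int.cast_abs]
        exact_mod_cast not_lt.1 hle
      linarith
    · linarith [B.θ_den, B.ρ_pos]
  by_cases hn : B.Near c B.ρ
  · obtain ⟨e, he, d, hd, rfl⟩ := hn
    rw [B.off_eq he hd] at hpos
    exact ⟨e, he, d, hpos, rfl⟩
  · exfalso
    rw [off, dif_neg hn] at hpos
    have : (B.ρ : ℤ) + 1 ≤ |(B.ρ : ℤ) + 1| := le_abs_self _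
    omega

theorem θ_add {c : ZMod (O.Q B.m)} {b : ℤ} (hb : |b| ≤ (B.r : ℤ)) :
    |B.θ c - B.θ (c + (b : ZMod (O.Q B.m)))| ≤ 2 * B.r / B.ρ ∧
      (¬ B.Near c B.ρ → B.θ c = 0 ∧ B.θ (c + (b : ZMod (O.Q B.m))) = 0) := by
  have hρ := B.ρ_pos
  have hden := B.θ_den
  have hzero : ¬ B.Near c B.ρ → B.θ c = 0 ∧ B.θ (c + (b : ZMod (O.Q B.m))) = 0 := by
    intro hn
    constructor
    · by_contra h0
      obtain ⟨e, he, d, hd, hc⟩ := B.site_of_θ_ne_zero h0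
      exact hn ⟨e, he, d, by omega, hc⟩
    · by_contra h0
      obtain ⟨e, he, d, hd, hc⟩ := B.site_of_θ_ne_zero h0
      refine hn ⟨e, he, d - b, (abs_sub _ _).trans (by omega), ?_⟩
      push_cast
      linear_combination hc
  refine ⟨?_, hzero⟩
  by_cases hn : B.Near c B.ρ
  swap
  · rw [(hzero hn).1, (hzero hn).2, sub_zero, abs_zero]
    positivity
  obtain ⟨e, he, d, hd, rfl⟩ := hn
  have hd' : |(d : ℝ)| ≤ B.ρ := by rw [← Int.cast_abs]; exact_mod_cast hd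
  have hb' : |(b : ℝ)| ≤ B.r := by rw [← Int.cast_abs]; exact_mod_cast hb
  rw [add_assoc, ← Int.cast_add]
  by_cases hdb : |d + b| ≤ (B.ρ : ℤ)
  · rw [θ, θ, B.off_eq he hd, B.off_eq he hdb]
    refine (abs_max_sub_max_le_max _ _ _ _).trans ?_
    rw [sub_self, abs_zero, max_eq_right (abs_nonneg _)]
    refine (abs_min_sub_min_le_max _ _ _ _).trans ?_
    rw [sub_self, abs_zero, max_eq_right (abs_nonneg _), ← sub_div, abs_div,
      abs_of_pos (show (0 : ℝ) < (B.ρ : ℝ) - 4 * B.r - B.w by linarith)]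
    have h1 : |(B.ρ : ℝ) - 2 * B.r - |(d : ℝ)| - ((B.ρ : ℝ) - 2 * B.r - |((d + b : ℤ) : ℝ)|)| ≤
        B.r := by
      push_cast
      rw [show (B.ρ : ℝ) - 2 * B.r - |(d : ℝ)| - ((B.ρ : ℝ) - 2 * B.r - |(d : ℝ) + b|) =
        |(d : ℝ) + b| - |(d : ℝ)| by ring]
      refine (abs_abs_sub_abs_le_abs_sub _ _).trans ?_
      rw [add_sub_cancel_left]
      exact hb'
    calc _ ≤ (B.r : ℝ) / ((B.ρ : ℝ) / 2) :=
          div_le_div₀ (Nat.cast_nonneg _) h1 (by positivity) hden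
      _ = _ := by field_simp
  · have h2 : B.θ (e + ((d + b : ℤ) : ZMod (O.Q B.m))) = 0 := by
      by_contra h0
      obtain ⟨e', he', d', hd', hc⟩ := B.site_of_θ_ne_zero h0
      have := abs_add_le d b
      have := B.w_ρ
      obtain ⟨-, h⟩ := B.site_unique he' he (by omega) (by omega) hc
      rw [h] at hd'
      omega
    have h1 : B.θ (e + (d : ZMod (O.Q B.m))) = 0 := by
      by_contra h0
      obtain ⟨e', he', d', hd', hc⟩ := B.site_of_θ_ne_zero h0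
      obtain ⟨-, h⟩ := B.site_unique he' he (by omega) (by omega) hc
      rw [h] at hd'
      have := abs_add_le d b
      omega
    rw [h1, h2, sub_zero, abs_zero]
    positivity

variable {z : S.X}

open scoped Classical in
/-- The front of the split atom of `y` with site `(e, d)` in row `i`. -/
def lookup (ω : B.I k → ℤ) (e : ↥B.E) (i d : ℤ) (y : Fin k × S.X) : ℤ :=
  if h : i ∈ Finset.Icc (-(B.R : ℤ)) B.R ∧ d ∈ Finset.Icc (-(B.ρ : ℤ)) B.ρ ∧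
      (fun u : ↥B.win => (S.act (-i, -d) y.2).1 u.1) ∈ B.pats e.1
  then ω (Sum.inr (Sum.inr ⟨e, y.1, ⟨i, h.1⟩, ⟨d, h.2.1⟩, ⟨_, h.2.2⟩⟩)) else 0

/-- Whether an atom is split. -/
def Split (ω : B.I k → ℤ) (t : B.U k) : Prop := B.Near t.2.2 (B.w + B.r) ∨ ω (Sum.inl t) ≠ 0

open scoped Classical in
/-- The front of the atom of `y` in row `i`. -/
def sel (ω : B.I k → ℤ) (i : ℤ) (y : Fin k × S.X) : ℤ :=
  if B.Split ω (y.1, (i : ZMod (O.Q B.n)), (O.pos B.m y.2).2) then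
    (if h : B.Near (O.pos B.m y.2).2 B.ρ then
      B.lookup ω ⟨h.choose, h.choose_spec.1⟩ i h.choose_spec.2.choose y else 0)
  else ω (Sum.inr (Sum.inl (y.1, (i : ZMod (O.Q B.n)), (O.pos B.m y.2).2)))

/-- The set of a row. -/
def rowSet (ω : B.I k → ℤ) (i : ℤ) : Set (Fin k × S.X) :=
  if (B.R₀ : ℤ) < i then Set.univ else if i < -(B.R₀ : ℤ) then ∅ else {y | B.sel ω i y ≤ i}

/-- The front. -/
def front (ω : B.I k → ℤ) : Set (Fin k × S.X) :=
  {y | ∃ i, y ∈ S.row₁ O ξ i ∧ y ∈ B.rowSet ω i}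

theorem mem_front {ω : B.I k → ℤ} {y : Fin k × S.X} {i : ℤ} (h : y ∈ S.row₁ O ξ i) :
    y ∈ B.front ω ↔ y ∈ B.rowSet ω i :=
  ⟨fun ⟨j, hj, hT⟩ => row₁_unique hj h ▸ hT, fun hT => ⟨i, h, hT⟩⟩

theorem sel_split {ω : B.I k → ℤ} {y : Fin k × S.X} {i : ℤ}
    (hs : B.Split ω (y.1, (i : ZMod (O.Q B.n)), (O.pos B.m y.2).2))
    {e : ZMod (O.Q B.m)} (he : e ∈ B.E) {d : ℤ} (hd : |d| ≤ (B.ρ : ℤ))
    (hc : e + (d : ZMod (O.Q B.m)) = (O.pos B.m y.2).2) :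
    B.sel ω i y = B.lookup ω ⟨e, he⟩ i d y := by
  have h : B.Near (O.pos B.m y.2).2 B.ρ := ⟨e, he, d, hd, hc⟩
  have hρ : (0 : ℤ) ≤ B.ρ := Int.natCast_nonneg _
  rw [sel, if_pos hs, dif_pos h]
  obtain ⟨h1, h2⟩ := B.site_unique h.choose_spec.1 he
    (h.choose_spec.2.choose_spec.1.trans (by linarith)) (hd.trans (by linarith))
    (h.choose_spec.2.choose_spec.2.trans hc.symm)
  congr 1
  exact Subtype.ext h1

theorem sel_unsplit {ω : B.I k → ℤ} {y : Fin k × S.X} {i : ℤ}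
    (hs : ¬ B.Split ω (y.1, (i : ZMod (O.Q B.n)), (O.pos B.m y.2).2)) :
    B.sel ω i y = ω (Sum.inr (Sum.inl (y.1, (i : ZMod (O.Q B.n)), (O.pos B.m y.2).2))) := by
  rw [sel, if_neg hs]

theorem pat_mem {y : Fin k × S.X} {i d : ℤ} (hy : y ∈ S.row₁ O ξ i) {e : ZMod (O.Q B.m)}
    (hc : e + (d : ZMod (O.Q B.m)) = (O.pos B.m y.2).2) :
    (fun u : ↥B.win => (S.act (-i, -d) y.2).1 u.1) ∈ B.pats e := by
  refine ⟨_, ⟨row₁_base hy _, ?_⟩, rfl⟩
  rw [O.pos_act, Prod.snd_add, ← hc]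
  push_cast
  ring

theorem lookup_eq {ω : B.I k → ℤ} {y : Fin k × S.X} {i d : ℤ} (hy : y ∈ S.row₁ O ξ i)
    {e : ↥B.E} (hc : e.1 + (d : ZMod (O.Q B.m)) = (O.pos B.m y.2).2) (hi : |i| ≤ (B.R : ℤ))
    (hd : |d| ≤ (B.ρ : ℤ)) :
    B.lookup ω e i d y = ω (Sum.inr (Sum.inr ⟨e, y.1, ⟨i, Finset.mem_Icc.2 (abs_le.1 hi)⟩,
      ⟨d, Finset.mem_Icc.2 (abs_le.1 hd)⟩, ⟨_, B.pat_mem hy hc⟩⟩)) := by
  rw [lookup, dif_pos ⟨Finset.mem_Icc.2 (abs_le.1 hi), Finset.mem_Icc.2 (abs_le.1 hd),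
    B.pat_mem hy hc⟩]

/-- The front is a front. -/
theorem isFront_front (ω : B.I k → ℤ) : S.IsFront₁ O ξ (B.front ω) := by
  classical
  obtain ⟨rm, hm⟩ := O.pos_local B.m
  refine ⟨B.R₀, max rm (B.R + 32 * B.r + (2 * B.ρ + 32 * B.r) + B.R + B.ρ), B.rowSet ω,
    fun i col x x' ha => ?_, fun i hi => by rw [rowSet, if_pos hi],
    fun i hi => by rw [rowSet, if_neg (by omega), if_pos hi], rfl⟩
  unfold rowSet
  split_ifs with h1 h2
  · simp
  · simp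
  simp only [Set.mem_ofPred_eq]
  rw [show B.sel ω i (col, x) = B.sel ω i (col, x') from ?_]
  have hc : O.pos B.m x = O.pos B.m x' :=
    hm x x' (one_agree_mono (box_mono (le_max_left _ _)) ha)
  unfold sel
  simp only [hc]
  split_ifs with hs hn
  · generalize hn.choose_spec.2.choose = d
    unfold lookup
    by_cases hid : i ∈ Finset.Icc (-(B.R : ℤ)) B.R ∧ d ∈ Finset.Icc (-(B.ρ : ℤ)) B.ρ
    · have hp : (fun u : ↥B.win => (S.act (-i, -d) x).1 u.1) =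
          fun u : ↥B.win => (S.act (-i, -d) x').1 u.1 := by
        funext u
        refine one_agree_act (fun u hu => ?_) ha u.1 u.2
        rw [win, mem_rect_iff] at hu
        rw [mem_box_iff]
        have h3 := Finset.mem_Icc.1 hid.1
        have h4 := Finset.mem_Icc.1 hid.2
        have h5 : ((B.R + 32 * B.r + (2 * B.ρ + 32 * B.r) + B.R + B.ρ : ℕ) : ℤ) ≤
            (max rm (B.R + 32 * B.r + (2 * B.ρ + 32 * B.r) + B.R + B.ρ) : ℕ) := by
          exact_mod_cast le_max_right rm _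
        simp only [Prod.fst_add, Prod.snd_add, abs_le] at hu ⊢
        omega
      simp only [hp]
    · rw [dif_neg fun h => hid ⟨h.1, h.2.1⟩, dif_neg fun h => hid ⟨h.1, h.2.1⟩]
  · rfl
  · rfl

/-- The properties of the coordinates on the support of the random fronts. -/
structure Good (ω : B.I k → ℤ) : Prop where
  one : ∀ t : B.U k, B.Near t.2.2 (B.w + 2 * B.r) → ω (Sum.inl t) ≠ 0
  site : ∀ t : B.U k, ω (Sum.inl t) ≠ 0 →
    ∃ e ∈ B.E, ∃ d : ℤ, |d| + 2 * B.r < B.ρ ∧ e + (d : ZMod (O.Q B.m)) = t.2.2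
  bound : ∀ a : B.U k ⊕ B.P k, |ω (Sum.inr a)| ≤ (B.L : ℤ)

theorem sel_bound {ω : B.I k → ℤ} (hω : B.Good ω) (i : ℤ) (y : Fin k × S.X) :
    |B.sel ω i y| ≤ (B.L : ℤ) := by
  unfold sel lookup
  split_ifs
  all_goals first
    | exact hω.bound _
    | simp

theorem mem_front_iff {ω : B.I k → ℤ} (hω : B.Good ω) {y : Fin k × S.X} {i : ℤ}
    (h : y ∈ S.row₁ O ξ i) : y ∈ B.front ω ↔ B.sel ω i y ≤ i := by
  have hb := abs_le.1 (B.sel_bound hω i y)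
  have hR : (B.L : ℤ) ≤ B.R₀ := by rw [R₀]; push_cast; omega
  rw [B.mem_front h, rowSet]
  split_ifs with h1 h2
  · simp only [Set.mem_univ, true_iff]; omega
  · simp only [Set.mem_empty_iff_false, false_iff]; omega
  · rfl

end Band

end Vale.Agent.P196.SFT.One
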