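import Vale.Agent.P196.Defs

/-!
P196, module A, stage one: rows, windows, and full maps in coordinates.
-/

noncomputable section

namespace Vale.Agent.P196.SFT

/-- The row `i` over the fibre of the first coordinate above `ξ`. -/
def row₁ (S : SFT) {k : ℕ} (O : S.Odometer) (ξ : ∀ n, ZMod (O.Q n)) (i : ℤ) :
    Set (Fin k × S.X) :=
  {y | ∀ n, (O.pos n y.2).1 = ξ n + i}

/-- A front: a set in the rows which is local in each row, contains all rows far to the right and
none far to the left. -/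
def IsFront₁ (S : SFT) {k : ℕ} (O : S.Odometer) (ξ : ∀ n, ZMod (O.Q n))
    (A : Set (Fin k × S.X)) : Prop :=
  ∃ (L r : ℕ) (T : ℤ → Set (Fin k × S.X)),
    (∀ i col x x', S.AgreeOn (box r) x x' → ((col, x) ∈ T i ↔ (col, x') ∈ T i)) ∧
    (∀ i : ℤ, (L : ℤ) < i → T i = Set.univ) ∧
    (∀ i : ℤ, i < -(L : ℤ) → T i = ∅) ∧
    A = {y | ∃ i, y ∈ S.row₁ O ξ i ∧ y ∈ T i}

namespace One

variable {S : SFT} {k : ℕ}

theorem one_act_apply (v : V) (x : S.X) (u : V) : (S.act v x).1 u = x.1 (u + v) := rfl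

theorem one_act_act (u v : V) (x : S.X) : S.act u (S.act v x) = S.act (u + v) x := by
  apply Subtype.ext
  funext w
  simp only [one_act_apply, add_assoc]

theorem one_act_zero (x : S.X) : S.act 0 x = x := by
  apply Subtype.ext
  funext w
  simp [one_act_apply]

theorem one_agree_mono {U W : Finset V} (h : U ⊆ W) {x y : S.X} (ha : S.AgreeOn W x y) :
    S.AgreeOn U x y := fun u hu => ha u (h hu)

theorem one_agree_act {U W : Finset V} {v : V} (h : ∀ u ∈ U, u + v ∈ W) {x y : S.X}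
    (ha : S.AgreeOn W x y) : S.AgreeOn U (S.act v x) (S.act v y) := fun u hu => by
  rw [one_act_apply, one_act_apply]
  exact ha _ (h u hu)

theorem mem_box_iff {r : ℕ} {u : V} : u ∈ box r ↔ |u.1| ≤ r ∧ |u.2| ≤ r := by
  simp only [box, Finset.mem_Icc, Prod.le_def, abs_le]
  tauto

theorem mem_rect_iff {a b : ℕ} {u : V} : u ∈ rect a b ↔ |u.1| ≤ a ∧ |u.2| ≤ b := by
  simp only [rect, Finset.mem_Icc, Prod.le_def, abs_le]
  tauto

theorem box_mono {r s : ℕ} (h : r ≤ s) : box r ⊆ box s := fun u hu => by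
  rw [mem_box_iff] at hu ⊢
  exact ⟨hu.1.trans (by exact_mod_cast h), hu.2.trans (by exact_mod_cast h)⟩

/-- The size of a displacement. -/
def Small (r : ℕ) (v : V) : Prop := |v.1| ≤ (r : ℤ) ∧ |v.2| ≤ (r : ℤ)

/-- A local map in coordinates: a colour and a displacement, both of radius `r`. -/
structure Coords (g : Equiv.Perm (Fin k × S.X)) (r : ℕ) where
  col : Fin k × S.X → Fin k
  disp : Fin k × S.X → V
  apply_eq : ∀ y, g y = (col y, S.act (disp y) y.2)
  loc : ∀ i x x', S.AgreeOn (box r) x x' →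
    col (i, x) = col (i, x') ∧ disp (i, x) = disp (i, x')
  small : ∀ y, Small r (disp y)

/-- Coordinates of a larger radius. -/
def Coords.mono {g : Equiv.Perm (Fin k × S.X)} {r s : ℕ} (c : Coords g r) (h : r ≤ s) :
    Coords g s where
  col := c.col
  disp := c.disp
  apply_eq := c.apply_eq
  loc i x x' ha := c.loc i x x' (one_agree_mono (box_mono h) ha)
  small y := ⟨(c.small y).1.trans (by exact_mod_cast h), (c.small y).2.trans (by exact_mod_cast h)⟩

theorem finite_range_local {β : Type} {r : ℕ} {f : S.X → β} (h : S.LocalWith r f) :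
    (Set.range f).Finite := by
  classical
  set p : S.X → (box r → S.A) := fun x u => x.1 u.1
  have hsub : Set.range f ⊆ (fun q : Set.range p => f q.2.choose) '' Set.univ := by
    rintro _ ⟨x, rfl⟩
    refine ⟨⟨p x, x, rfl⟩, Set.mem_univ _, h _ _ fun u hu => ?_⟩
    exact congrFun (⟨x, rfl⟩ : ∃ y, p y = p x).choose_spec ⟨u, hu⟩
  exact (Set.finite_univ.image _).subset hsub

theorem exists_coords {g : Equiv.Perm (Fin k × S.X)} (hg : S.IsFullMap g) :
    ∃ r, Nonempty (Coords g r) := by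
  classical
  obtain ⟨r, hr⟩ := hg
  choose col d hcol hd hgi using hr
  have hb : ∀ i, ∃ D : ℕ, ∀ x, Small D (d i x) := fun i => by
    refine ⟨(finite_range_local (hd i)).toFinset.sup fun v => max v.1.natAbs v.2.natAbs,
      fun x => ?_⟩
    have h := Finset.le_sup (f := fun v : V => max v.1.natAbs v.2.natAbs)
      ((finite_range_local (hd i)).mem_toFinset.2 ⟨x, rfl⟩)
    simp only [Small, Int.abs_eq_natAbs, Nat.cast_le]
    exact ⟨(le_max_left _ _).trans h, (le_max_right _ _).trans h⟩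
  choose D hD using hb
  refine ⟨max r (Finset.univ.sup D), ⟨⟨fun y => col y.1 y.2, fun y => d y.1 y.2,
    fun y => hgi y.1 y.2, fun i x x' ha => ?_, fun y => ?_⟩⟩⟩
  · have := one_agree_mono (box_mono (le_max_left r (Finset.univ.sup D))) ha
    exact ⟨hcol i x x' this, hd i x x' this⟩
  · have h : D y.1 ≤ max r (Finset.univ.sup D) :=
      (Finset.le_sup (Finset.mem_univ y.1)).trans (le_max_right _ _)
    exact ⟨(hD y.1 y.2).1.trans (by exact_mod_cast h), (hD y.1 y.2).2.trans (by exact_mod_cast h)⟩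

section Rows

variable {O : S.Odometer} {ξ : ∀ n, ZMod (O.Q n)}

theorem row₁_unique {y : Fin k × S.X} {i j : ℤ} (hi : y ∈ S.row₁ O ξ i) (hj : y ∈ S.row₁ O ξ j) :
    i = j := by
  by_contra hne
  have hlt : (i - j).natAbs < O.Q ((i - j).natAbs + 1) :=
    lt_of_lt_of_le (Nat.lt_succ_self _) (O.Q_strict.id_le _)
  have h := (hi ((i - j).natAbs + 1)).symm.trans (hj ((i - j).natAbs + 1))
  rw [add_right_inj, ZMod.intCast_eq_intCast_iff_dvd_sub] at h
  have h2 := Nat.le_of_dvd (Int.natAbs_pos.2 (sub_ne_zero.2 (Ne.symm hne)))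
    (Int.natCast_dvd.1 h)
  rw [show (j - i).natAbs = (i - j).natAbs by omega] at h2
  omega

theorem mem_row₁_act {y : Fin k × S.X} {i : ℤ} (h : y ∈ S.row₁ O ξ i) (col : Fin k) (v : V) :
    (col, S.act v y.2) ∈ S.row₁ O ξ (i + v.1) := fun n => by
  show (O.pos n (S.act v y.2)).1 = _
  rw [O.pos_act, Prod.fst_add, h n]
  push_cast
  ring

theorem row₁_base {y : Fin k × S.X} {i : ℤ} (h : y ∈ S.row₁ O ξ i) (b : ℤ) :
    S.act (-i, b) y.2 ∈ O.fibre₁ ξ := fun n => by
  rw [O.pos_act, Prod.fst_add, h n]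
  push_cast
  ring

theorem mem_row₁_of_base {z : S.X} (h : z ∈ O.fibre₁ ξ) (col : Fin k) (v : V) :
    (col, S.act v z) ∈ S.row₁ O ξ v.1 := fun n => by
  show (O.pos n (S.act v z)).1 = _
  rw [O.pos_act, Prod.fst_add, h n]

end Rows

end One

end Vale.Agent.P196.SFT
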