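import Vale.Agent.P196.Amen.One.Front

/-!
P196, module A, stage one: moving a front by a map is moving its coordinates.
-/

noncomputable section

namespace Vale.Agent.P196.SFT.One

variable {S : SFT} {O : S.Odometer} {ξ : ∀ n, ZMod (O.Q n)} {k : ℕ}

namespace Band

variable (B : Band S O ξ)

theorem R₀_le : B.R₀ + B.r ≤ B.R := by
  have := B.r_R
  simp only [R₀, L]
  omega

theorem agree_class {y y' : Fin k × S.X} {i i' : ℤ} (hy : y ∈ S.row₁ O ξ i)
    (hy' : y' ∈ S.row₁ O ξ i') (hi : |i| ≤ (B.R : ℤ)) (hi' : |i'| ≤ (B.R : ℤ))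
    (hres : (i : ZMod (O.Q B.n)) = i') (hc : (O.pos B.m y.2).2 = (O.pos B.m y'.2).2)
    (hn : ¬ B.Near (O.pos B.m y.2).2 B.w) : S.AgreeOn (box B.r) y.2 y'.2 := by
  have h2 : ∀ (x : S.X) (a : ℤ), (O.pos B.m (S.act (a, 0) x)).2 = (O.pos B.m x).2 := fun x a => by
    rw [O.pos_act, Prod.snd_add]
    simp
  have h := B.periodic _ (row₁_base hy 0) _ (row₁_base hy' 0) (by rw [h2, h2, hc])
    (fun e he d hd h => hn ⟨e, he, d, hd, by rw [h, h2]⟩) i i' hi hi' (by
      rw [← ZMod.intCast_eq_intCast_iff_dvd_sub]; exact hres.symm)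
  simp only [one_act_act, Prod.mk_add_mk, add_neg_cancel, add_zero] at h
  rw [show ((0 : ℤ), (0 : ℤ)) = (0 : V) from rfl, one_act_zero, one_act_zero] at h
  exact one_agree_mono (box_mono (by omega)) h

theorem agree_pattern {u u' : S.X} (h : ∀ v : ↥B.win, u.1 v.1 = u'.1 v.1) {j d : ℤ}
    (hj : |j| ≤ (B.R : ℤ)) (hd : |d| ≤ (B.ρ : ℤ)) :
    S.AgreeOn (box B.r) (S.act (j, d) u) (S.act (j, d) u') := by
  refine one_agree_act (W := B.win) (fun v hv => ?_) fun v hv => h ⟨v, hv⟩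
  rw [mem_box_iff] at hv
  rw [win, mem_rect_iff]
  simp only [Prod.fst_add, Prod.snd_add, abs_le] at *
  push_cast
  omega

variable (k)

/-- The unsplit classes which matter. -/
abbrev DU : Type :=
  {t : B.U k // ¬ B.Near t.2.2 (B.w + B.r) ∧ ∃ j : ℤ, |j| ≤ (B.R₀ : ℤ) ∧
    (j : ZMod (O.Q B.n)) = t.2.1}

/-- The split atoms which matter. -/
abbrev DP : Type :=
  {p : B.P k // |p.2.2.1.1| ≤ (B.R₀ : ℤ) ∧ |p.2.2.2.1.1| + B.r ≤ (B.ρ : ℤ)}

/-- The coordinates which matter. -/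
abbrev D : Type := B.DU k ⊕ B.DU k ⊕ B.DP k

instance : Fintype (B.DU k) := Fintype.ofFinite _

instance : Fintype (B.DP k) := Fintype.ofFinite _

variable {k}

/-- The inclusion of the coordinates which matter. -/
def incl : B.D k → B.I k := Sum.map Subtype.val (Sum.map Subtype.val Subtype.val)

theorem incl_injective : Function.Injective (B.incl (k := k)) :=
  Subtype.val_injective.sumMap (Subtype.val_injective.sumMap Subtype.val_injective)

/-- Filling up the coordinates which do not matter. -/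
def ext' (η : B.D k → ℤ) : B.I k → ℤ := Function.extend B.incl η 0

theorem ext'_incl (η : B.D k → ℤ) (d : B.D k) : B.ext' η (B.incl d) = η d :=
  B.incl_injective.extend_apply η 0 d

theorem ext'_W (η : B.D k → ℤ) (t : B.DU k) : B.ext' η (Sum.inl t.1) = η (Sum.inl t) :=
  B.ext'_incl η (Sum.inl t)

theorem ext'_U (η : B.D k → ℤ) (t : B.DU k) :
    B.ext' η (Sum.inr (Sum.inl t.1)) = η (Sum.inr (Sum.inl t)) :=
  B.ext'_incl η (Sum.inr (Sum.inl t))

theorem ext'_P (η : B.D k → ℤ) (p : B.DP k) :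
    B.ext' η (Sum.inr (Sum.inr p.1)) = η (Sum.inr (Sum.inr p)) :=
  B.ext'_incl η (Sum.inr (Sum.inr p))

/-- The class of a point. -/
def cls (y : Fin k × S.X) (i : ℤ) : B.U k :=
  (y.1, (i : ZMod (O.Q B.n)), (O.pos B.m y.2).2)

theorem du_mem {y : Fin k × S.X} {j : ℤ} (hj : |j| ≤ (B.R₀ : ℤ))
    (hn : ¬ B.Near (O.pos B.m y.2).2 (B.w + B.r)) :
    ¬ B.Near (B.cls y j).2.2 (B.w + B.r) ∧ ∃ i : ℤ, |i| ≤ (B.R₀ : ℤ) ∧
      (i : ZMod (O.Q B.n)) = (B.cls y j).2.1 :=
  ⟨hn, j, hj, rfl⟩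

/-- The atom of a point at a site. -/
def atom {y : Fin k × S.X} {i d : ℤ} (hy : y ∈ S.row₁ O ξ i) (e : ↥B.E)
    (hc : e.1 + (d : ZMod (O.Q B.m)) = (O.pos B.m y.2).2) (hi : |i| ≤ (B.R : ℤ))
    (hd : |d| ≤ (B.ρ : ℤ)) : B.P k :=
  ⟨e, y.1, ⟨i, Finset.mem_Icc.2 (abs_le.1 hi)⟩, ⟨d, Finset.mem_Icc.2 (abs_le.1 hd)⟩,
    ⟨_, B.pat_mem hy hc⟩⟩

section Moved

variable {g : Equiv.Perm (Fin k × S.X)} (hne : (O.fibre₁ ξ).Nonempty)
  (c : Coords g⁻¹ B.r) (cg : Coords g B.r)

include hne in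
theorem exists_witU (t : B.DU k) : ∃ y : Fin k × S.X, ∃ j : ℤ, y ∈ S.row₁ O ξ j ∧
    |j| ≤ (B.R₀ : ℤ) ∧ B.cls y j = t.1 := by
  obtain ⟨z, hz⟩ := hne
  obtain ⟨⟨col, res, cl⟩, -, j, hj, hjr⟩ := t
  refine ⟨(col, S.act (j, ((cl - (O.pos B.m z).2).val : ℤ)) z), j, mem_row₁_of_base hz _ _, hj, ?_⟩
  simp only [cls, O.pos_act, Prod.snd_add, Int.cast_natCast, ZMod.natCast_zmod_val,
    add_sub_cancel]
  rw [hjr]

/-- A representative of an unsplit class. -/
def witU (t : B.DU k) : Fin k × S.X := (B.exists_witU hne t).choose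

/-- A representative of a split atom. -/
def witP (p : B.DP k) : Fin k × S.X :=
  (p.1.2.1, S.act (p.1.2.2.1.1, p.1.2.2.2.1.1) p.1.2.2.2.2.2.choose)

theorem witP_spec (p : B.DP k) :
    B.witP p ∈ S.row₁ O ξ p.1.2.2.1.1 ∧
      p.1.1.1 + (p.1.2.2.2.1.1 : ZMod (O.Q B.m)) = (O.pos B.m (B.witP p).2).2 ∧
      ∀ v : ↥B.win, (S.act (-p.1.2.2.1.1, -p.1.2.2.2.1.1) (B.witP p).2).1 v.1 =
        p.1.2.2.2.2.1 v := by
  obtain ⟨⟨hz, hzc⟩, hzp⟩ := p.1.2.2.2.2.2.choose_spec
  refine ⟨mem_row₁_of_base hz _ _, ?_, fun v => ?_⟩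
  · simp only [witP, O.pos_act, Prod.snd_add, hzc]
  · simp only [witP, one_act_act, Prod.mk_add_mk, neg_add_cancel]
    rw [show ((0 : ℤ), (0 : ℤ)) = (0 : V) from rfl, one_act_zero]
    exact congrFun hzp v

theorem abs_add_small {x a : ℤ} {M N : ℕ} (hx : |x| ≤ (M : ℤ)) (ha : |a| ≤ (B.r : ℤ))
    (h : M + B.r ≤ N) : |x + a| ≤ (N : ℤ) :=
  (abs_add_le _ _).trans (by push_cast; omega)

/-- The source of a coordinate. -/
def srcP (p : B.DP k) : B.P k :=
  ⟨p.1.1, c.col (B.witP p),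
    ⟨p.1.2.2.1.1 + (c.disp (B.witP p)).1, Finset.mem_Icc.2 (abs_le.1
      (B.abs_add_small p.2.1 (c.small _).1 B.R₀_le))⟩,
    ⟨p.1.2.2.2.1.1 + (c.disp (B.witP p)).2, Finset.mem_Icc.2 (abs_le.1
      ((abs_add_le _ _).trans (by linarith [p.2.2, (c.small (B.witP p)).2])))⟩,
    p.1.2.2.2.2⟩

/-- The source of an unsplit class. -/
def srcU (t : B.DU k) : B.U k :=
  (c.col (B.witU hne t), t.1.2.1 + ((c.disp (B.witU hne t)).1 : ZMod (O.Q B.n)),
    t.1.2.2 + ((c.disp (B.witU hne t)).2 : ZMod (O.Q B.m)))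

/-- The sources of all coordinates. -/
def src : B.D k → B.I k := Sum.map (B.srcU hne c) (Sum.map (B.srcU hne c) (B.srcP c))

/-- The shifts of the coordinates. -/
def shift : B.D k → ℤ :=
  Sum.elim (fun _ => 0) (Sum.elim (fun t => (c.disp (B.witU hne t)).1)
    fun p => (c.disp (B.witP p)).1)

/-- The coordinates of the moved front. -/
def moved (ω : B.I k → ℤ) : B.D k → ℤ := fun d => ω (B.src hne c d) - B.shift hne c d

theorem coords_U {y : Fin k × S.X} {j : ℤ} (hy : y ∈ S.row₁ O ξ j) (hj : |j| ≤ (B.R₀ : ℤ))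
    (t : B.DU k) (ht : B.cls y j = t.1) :
    c.col y = c.col (B.witU hne t) ∧ c.disp y = c.disp (B.witU hne t) := by
  obtain ⟨i, hw, hi, hwc⟩ := (B.exists_witU hne t).choose_spec
  rw [← show B.witU hne t = (B.exists_witU hne t).choose from rfl] at hw hwc
  have h := ht.trans hwc.symm
  simp only [cls, Prod.mk.injEq] at h
  have hR := B.R₀_le
  have hn : ¬ B.Near (O.pos B.m y.2).2 B.w := fun hn => t.2.1 (by
    rw [← congrArg (fun q : B.U k => q.2.2) ht]
    exact B.near_mono hn (Nat.le_add_right _ _))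
  have hag := B.agree_class hy hw (hj.trans (by omega)) (hi.trans (by omega)) h.2.1 h.2.2 hn
  obtain ⟨h1, h2⟩ := c.loc y.1 y.2 _ hag
  have e : B.witU hne t = (y.1, (B.witU hne t).2) := Prod.ext h.1.symm rfl
  rw [e]
  exact ⟨h1, h2⟩

theorem coords_P {y : Fin k × S.X} (p : B.DP k) (h1 : y.1 = p.1.2.1)
    (hp : ∀ v : ↥B.win, (S.act (-p.1.2.2.1.1, -p.1.2.2.2.1.1) y.2).1 v.1 = p.1.2.2.2.2.1 v) :
    c.col y = c.col (B.witP p) ∧ c.disp y = c.disp (B.witP p) := by
  have hj := p.2.1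
  have hd := p.2.2
  have hR := B.R₀_le
  have key := B.agree_pattern (j := p.1.2.2.1.1) (d := p.1.2.2.2.1.1)
    (fun v => (hp v).trans ((B.witP_spec p).2.2 v).symm) (by omega) (by omega)
  simp only [one_act_act, Prod.mk_add_mk, add_neg_cancel] at key
  rw [show ((0 : ℤ), (0 : ℤ)) = (0 : V) from rfl, one_act_zero, one_act_zero] at key
  obtain ⟨e1, e2⟩ := c.loc y.1 y.2 _ key
  have e : B.witP p = (y.1, (B.witP p).2) := Prod.ext h1.symm rfl
  rw [e]
  exact ⟨e1, e2⟩

include cg in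
theorem back_eq {y y' : Fin k × S.X} (hcol : c.col y = c.col y')
    (hag : S.AgreeOn (box B.r) (S.act (c.disp y) y.2) (S.act (c.disp y') y'.2)) :
    ∃ v : V, y.1 = y'.1 ∧ y.2 = S.act (v + c.disp y) y.2 ∧ y'.2 = S.act (v + c.disp y') y'.2 := by
  have hx : ∀ z : Fin k × S.X, g (c.col z, S.act (c.disp z) z.2) = z := fun z => by
    rw [← c.apply_eq]
    simp
  have h1 := hx y
  have h2 := hx y'
  rw [cg.apply_eq] at h1 h2
  obtain ⟨e1, e2⟩ := cg.loc (c.col y) _ _ hag
  rw [← hcol, ← e1, ← e2, one_act_act] at h2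
  rw [one_act_act] at h1
  simp only [Prod.ext_iff] at h1 h2
  exact ⟨_, h1.1.symm.trans h2.1, h1.2.symm, h2.2.symm⟩

include cg in
theorem srcU_injective : Function.Injective (B.srcU hne c (k := k)) := by
  intro t t' h
  obtain ⟨j, hw, hj, hwc⟩ := (B.exists_witU hne t).choose_spec
  obtain ⟨j', hw', hj', hwc'⟩ := (B.exists_witU hne t').choose_spec
  rw [← show B.witU hne t = (B.exists_witU hne t).choose from rfl] at hw hwc
  rw [← show B.witU hne t' = (B.exists_witU hne t').choose from rfl] at hw' hwc'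
  set y := B.witU hne t
  set y' := B.witU hne t'
  simp only [srcU, Prod.mk.injEq] at h
  obtain ⟨hcol, hres, hcl⟩ := h
  change c.col y = c.col y' at hcol
  rw [← hwc, ← hwc'] at hres hcl
  simp only [cls] at hres hcl
  have hR := B.R₀_le
  have hxr := mem_row₁_act hw (c.col y) (c.disp y)
  have hxr' := mem_row₁_act hw' (c.col y') (c.disp y')
  have hag := B.agree_class hxr hxr'
    ((B.abs_add_small hj (c.small y).1 hR)) ((B.abs_add_small hj' (c.small y').1 hR))
    (by push_cast; exact hres) (by simp only [O.pos_act, Prod.snd_add]; exact hcl) (by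
      simp only [O.pos_act, Prod.snd_add]
      intro hn
      apply t.2.1
      rw [← hwc]
      have hb : |(-(c.disp y).2)| ≤ (B.r : ℤ) := by rw [abs_neg]; exact (c.small y).2
      have := B.near_add hn hb
      simp only [Int.cast_neg, add_neg_cancel_right] at this
      exact this)
  obtain ⟨v, hc0, hv, hv'⟩ := B.back_eq c cg hcol hag
  apply Subtype.ext
  rw [← hwc, ← hwc']
  have r1 := row₁_unique hw (by
    have := mem_row₁_act hw y.1 (v + c.disp y)
    rwa [← hv] at this)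
  have r2 := row₁_unique hw' (by
    have := mem_row₁_act hw' y'.1 (v + c.disp y')
    rwa [← hv'] at this)
  have c1 := congrArg (fun x => (O.pos B.m x).2) hv
  have c2 := congrArg (fun x => (O.pos B.m x).2) hv'
  simp only [O.pos_act, Prod.snd_add, Int.cast_add] at c1 c2
  have r1' : ((v.1 : ℤ) : ZMod (O.Q B.n)) + (c.disp y).1 = 0 := by
    rw [← Int.cast_add, show v.1 + (c.disp y).1 = 0 by simp only [Prod.fst_add] at r1; omega,
      Int.cast_zero]
  have r2' : ((v.1 : ℤ) : ZMod (O.Q B.n)) + (c.disp y').1 = 0 := by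
    rw [← Int.cast_add, show v.1 + (c.disp y').1 = 0 by simp only [Prod.fst_add] at r2; omega,
      Int.cast_zero]
  refine Prod.ext hc0 (Prod.ext ?_ ?_)
  · simp only [cls]
    linear_combination hres - r1' + r2'
  · simp only [cls]
    linear_combination hcl + c1 - c2

include cg in
theorem srcP_injective : Function.Injective (B.srcP c (k := k)) := by
  intro p p' h
  obtain ⟨hw, hwc, hwp⟩ := B.witP_spec p
  obtain ⟨hw', hwc', hwp'⟩ := B.witP_spec p'
  obtain ⟨⟨e, col, ⟨j, hjI⟩, ⟨d, hdI⟩, π⟩, hj, hd⟩ := p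
  obtain ⟨⟨e', col', ⟨j', hjI'⟩, ⟨d', hdI'⟩, π'⟩, hj', hd'⟩ := p'
  simp only [srcP, Sigma.mk.injEq] at h
  obtain ⟨rfl, h⟩ := h
  simp only [heq_eq_eq, Prod.mk.injEq, Subtype.mk.injEq] at h
  obtain ⟨hcol, hjj, hdd, rfl⟩ := h
  set y := B.witP ⟨⟨e, col, ⟨j, hjI⟩, ⟨d, hdI⟩, π⟩, hj, hd⟩ with hy
  set y' := B.witP ⟨⟨e, col', ⟨j', hjI'⟩, ⟨d', hdI'⟩, π⟩, hj', hd'⟩ with hy'
  simp only at hw hw' hwc hwc' hwp hwp' hj hd hj' hd'
  have hag : S.AgreeOn (box B.r) (S.act (c.disp y) y.2) (S.act (c.disp y') y'.2) := by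
    have key := B.agree_pattern (fun v => (hwp v).trans (hwp' v).symm)
      (B.abs_add_small hj (c.small y).1 B.R₀_le) (d := d + (c.disp y).2)
      ((abs_add_le _ _).trans (by linarith [(c.small y).2]))
    simp only [one_act_act, Prod.mk_add_mk, add_neg_cancel_comm] at key
    rw [show j + (c.disp y).1 + -j' = (c.disp y').1 by omega,
      show d + (c.disp y).2 + -d' = (c.disp y').2 by omega] at key
    exact key
  obtain ⟨v, hc0, hv, hv'⟩ := B.back_eq c cg hcol hag
  have r1 := row₁_unique hw (by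
    have := mem_row₁_act hw y.1 (v + c.disp y)
    rwa [← hv] at this)
  have r2 := row₁_unique hw' (by
    have := mem_row₁_act hw' y'.1 (v + c.disp y')
    rwa [← hv'] at this)
  simp only [Prod.fst_add] at r1 r2
  obtain rfl : j = j' := by omega
  have c1 := congrArg (fun x => (O.pos B.m x).2) hv
  have c2 := congrArg (fun x => (O.pos B.m x).2) hv'
  simp only [O.pos_act, Prod.snd_add, Int.cast_add, ← hwc, ← hwc'] at c1 c2
  have hdd' := congrArg (fun z : ℤ => (z : ZMod (O.Q B.m))) hdd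
  simp only [Int.cast_add] at hdd'
  obtain rfl : d = d' := (B.site_unique e.2 e.2 (by linarith [abs_nonneg d])
    (by linarith [abs_nonneg d']) (by linear_combination c1 - c2 + hdd')).2
  obtain rfl : col = col' := hc0
  rfl

include cg in
theorem src_injective : Function.Injective (B.src hne c (k := k)) :=
  (B.srcU_injective hne c cg).sumMap
    ((B.srcU_injective hne c cg).sumMap (B.srcP_injective c cg))

/-- On good coordinates the coordinates which matter determine the front. -/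
theorem front_restrict {ω : B.I k → ℤ} (hω : B.Good ω) :
    B.front (B.ext' fun d => ω (B.incl d)) = B.front ω := by
  ext y
  constructor <;> rintro ⟨j, hj, h⟩ <;> refine ⟨j, hj, ?_⟩ <;> revert h <;> unfold rowSet <;>
    split_ifs with h1 h2 <;> try exact id
  all_goals
    simp only [Set.mem_ofPred_eq]
    have hR := B.R₀_le
    have hjR : |j| ≤ (B.R₀ : ℤ) := abs_le.2 ⟨by omega, by omega⟩
    set η : B.D k → ℤ := fun d => ω (B.incl d)
    rw [show B.sel (B.ext' η) j y = B.sel ω j y from ?_]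
    · exact id
    have hsite : ∀ e (he : e ∈ B.E) (d : ℤ), |d| + B.r ≤ (B.ρ : ℤ) →
        e + (d : ZMod (O.Q B.m)) = (O.pos B.m y.2).2 → B.Split (B.ext' η) (B.cls y j) →
        B.Split ω (B.cls y j) → B.sel (B.ext' η) j y = B.sel ω j y := by
      intro e he d hd hc hs1 hs2
      rw [B.sel_split hs1 he (by omega) hc, B.sel_split hs2 he (by omega) hc,
        B.lookup_eq hj (e := ⟨e, he⟩) hc (by omega) (by omega),
        B.lookup_eq hj (e := ⟨e, he⟩) hc (by omega) (by omega)]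
      exact B.ext'_P η ⟨B.atom hj ⟨e, he⟩ hc (by omega) (by omega), hjR, hd⟩
    by_cases hn : B.Near (O.pos B.m y.2).2 (B.w + B.r)
    · obtain ⟨e, he, d, hd, hc⟩ := id hn
      have := B.w_ρ
      exact hsite e he d (by omega) hc (Or.inl hn) (Or.inl hn)
    set t : B.DU k := ⟨B.cls y j, B.du_mem hjR hn⟩ with ht
    have hW := B.ext'_W η t
    by_cases h0 : ω (Sum.inl (B.cls y j)) = 0
    · rw [B.sel_unsplit, B.sel_unsplit]
      · exact B.ext'_U η t
      · exact not_or.2 ⟨hn, not_not.2 h0⟩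
      · exact not_or.2 ⟨hn, not_not.2 (hW.trans h0)⟩
    · obtain ⟨e, he, d, hd, hc⟩ := hω.site _ h0
      exact hsite e he d (by omega) hc (Or.inr (by rw [hW]; exact h0)) (Or.inr h0)

/-- The moved front is the front of the moved coordinates. -/
theorem front_moved {ω : B.I k → ℤ} (hω : B.Good ω) :
    g '' B.front ω = B.front (B.ext' (B.moved hne c ω)) := by
  ext y
  rw [Equiv.image_eq_preimage_symm, Set.mem_preimage, show g.symm y = g⁻¹ y from rfl, c.apply_eq]
  constructor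
  all_goals intro h
  · obtain ⟨i, hi, -⟩ := id h
    have hy : y ∈ S.row₁ O ξ (i - (c.disp y).1) := fun n => by
      have h' := hi n
      rw [O.pos_act, Prod.fst_add] at h'
      push_cast
      linear_combination h'
    exact (key hy).1 h
  · obtain ⟨j, hy, -⟩ := id h
    exact (key hy).2 h
where
  key {y : Fin k × S.X} {j : ℤ} (hy : y ∈ S.row₁ O ξ j) :
      (c.col y, S.act (c.disp y) y.2) ∈ B.front ω ↔ y ∈ B.front (B.ext' (B.moved hne c ω)) := by
    set x : Fin k × S.X := (c.col y, S.act (c.disp y) y.2)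
    set a := (c.disp y).1 with ha
    set b := (c.disp y).2 with hb
    have hx : x ∈ S.row₁ O ξ (j + a) := mem_row₁_act hy _ _
    have hxc : (O.pos B.m x.2).2 = (O.pos B.m y.2).2 + (b : ZMod (O.Q B.m)) := by
      simp only [x, O.pos_act, Prod.snd_add, hb]
    have hsm := c.small y
    have has := abs_le.1 hsm.1
    set η := B.moved hne c ω
    have hR := B.R₀_le
    have hL : (B.R₀ : ℤ) = B.L + 2 * B.r := by simp [R₀]
    rw [B.mem_front_iff hω hx, B.mem_front hy, rowSet]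
    have hbd := abs_le.1 (B.sel_bound hω (j + a) x)
    split_ifs with h1 h2
    · simp only [Set.mem_univ, iff_true]; omega
    · simp only [Set.mem_empty_iff_false, iff_false]; omega
    simp only [Set.mem_ofPred_eq]
    suffices B.sel (B.ext' η) j y = B.sel ω (j + a) x - a by omega
    have hjR : |j| ≤ (B.R₀ : ℤ) := abs_le.2 ⟨by omega, by omega⟩
    have hjaR : |j + a| ≤ (B.R : ℤ) := B.abs_add_small hjR hsm.1 hR
    have hsite : ∀ e (he : e ∈ B.E) (d : ℤ), |d| + B.r ≤ (B.ρ : ℤ) →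
        e + (d : ZMod (O.Q B.m)) = (O.pos B.m y.2).2 → B.Split (B.ext' η) (B.cls y j) →
        B.Split ω (B.cls x (j + a)) → B.sel (B.ext' η) j y = B.sel ω (j + a) x - a := by
      intro e he d hd hc hs1 hs2
      have hdb : |d + b| ≤ (B.ρ : ℤ) := (abs_add_le _ _).trans (by linarith [hsm.2])
      have hc' : e + ((d + b : ℤ) : ZMod (O.Q B.m)) = (O.pos B.m x.2).2 := by
        rw [hxc, ← hc]; push_cast; ring
      rw [B.sel_split hs1 he (by omega) hc, B.sel_split hs2 he hdb hc',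
        B.lookup_eq hy (e := ⟨e, he⟩) hc (by omega) (by omega),
        B.lookup_eq hx (e := ⟨e, he⟩) hc' hjaR hdb]
      set p : B.DP k := ⟨B.atom hy ⟨e, he⟩ hc (by omega) (by omega), hjR, hd⟩
      refine (B.ext'_P η p).trans ?_
      obtain ⟨e1, e2⟩ := B.coords_P c (y := y) p rfl fun v => rfl
      show ω (Sum.inr (Sum.inr (B.srcP c p))) - (c.disp (B.witP p)).1 = _
      rw [← e2]
      refine congrArg (fun q => ω (Sum.inr (Sum.inr q)) - a) ?_
      simp only [srcP, ← e1, ← e2]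
      refine Sigma.ext rfl (heq_of_eq (Prod.ext rfl (Prod.ext rfl (Prod.ext rfl ?_))))
      apply Subtype.ext
      funext v
      simp only [p, atom, x, one_act_apply, one_act_act, ha, hb]
      rw [show ((-(j + (c.disp y).1), -(d + (c.disp y).2)) : V) + c.disp y = (-j, -d) by
        ext <;> simp]
    by_cases hn : B.Near (O.pos B.m y.2).2 (B.w + B.r)
    · obtain ⟨e, he, d, hd, hc⟩ := id hn
      have := B.w_ρ
      refine hsite e he d (by omega) hc (Or.inl hn) (Or.inr (hω.one _ ?_))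
      show B.Near (O.pos B.m x.2).2 _
      rw [hxc]
      exact B.near_mono (B.near_add hn hsm.2) (by omega)
    set t : B.DU k := ⟨B.cls y j, B.du_mem hjR hn⟩
    obtain ⟨e1, e2⟩ := B.coords_U hne c hy hjR t rfl
    have hsrc : B.srcU hne c t = B.cls x (j + a) := by
      simp only [srcU, ← e1, ← e2]
      simp only [t, cls, hxc, Int.cast_add, x, ha, hb]
    have hW : B.ext' η (Sum.inl (B.cls y j)) = ω (Sum.inl (B.cls x (j + a))) := by
      rw [show Sum.inl (B.cls y j) = (Sum.inl t.1 : B.I k) from rfl, B.ext'_W η t, ← hsrc]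
      simp [η, moved, src, shift]
    by_cases h0 : ω (Sum.inl (B.cls x (j + a))) = 0
    · have hn' : ¬ B.Near (O.pos B.m x.2).2 (B.w + B.r) := fun h =>
        hω.one _ (B.near_mono h (by omega)) h0
      rw [B.sel_unsplit, B.sel_unsplit]
      · refine (B.ext'_U η t).trans ?_
        show ω (Sum.inr (Sum.inl (B.srcU hne c t))) - (c.disp (B.witU hne t)).1 = _
        rw [← e2, hsrc]
        rfl
      · exact not_or.2 ⟨hn', not_not.2 h0⟩
      · exact not_or.2 ⟨hn, not_not.2 (hW.trans h0)⟩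
    · obtain ⟨e, he, d, hd, hc⟩ := hω.site _ h0
      have hb' : |b| ≤ (B.r : ℤ) := hsm.2
      refine hsite e he (d - b) (by have := abs_sub d b; omega) ?_
        (Or.inr (by rw [hW]; exact h0)) (Or.inr h0)
      simp only [cls] at hc
      push_cast
      linear_combination hc + hxc

end Moved

end Band

end Vale.Agent.P196.SFT.One
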