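import Vale.Agent.P196.Amen.One.Move

/-!
P196, module A, stage one: tents, the random front, and the cost of moving it.
-/

noncomputable section

namespace Vale.Agent.P196.Amen.Vec

open Finset Finsupp

/-- The normalisation of a tent. -/
def tentNorm (L : ℕ) : ℝ :=
  √(∑ t ∈ Finset.Icc (-(L : ℤ)) L, max 0 ((L : ℝ) - |(t : ℝ)|) ^ 2)

/-- The tent of half-width `L` centred at `a`, as an amplitude vector. -/
def tent (L : ℕ) (a : ℤ) : ℤ →₀ ℝ :=
  Finsupp.onFinset (Finset.Icc (a - L) (a + L))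
    (fun t => max 0 ((L : ℝ) - |((t - a : ℤ) : ℝ)|) / tentNorm L) fun t h => by
      rw [Finset.mem_Icc]
      by_contra hn
      refine h ?_
      rw [max_eq_left, zero_div]
      have : (L : ℤ) ≤ |t - a| := by
        rcases not_and_or.1 hn with h | h
        · exact le_trans (by omega) (neg_le_abs _)
        · exact le_trans (by omega) (le_abs_self _)
      rw [← Int.cast_abs, sub_nonpos]
      exact_mod_cast this

theorem tent_apply (L : ℕ) (a t : ℤ) :
    tent L a t = max 0 ((L : ℝ) - |((t - a : ℤ) : ℝ)|) / tentNorm L := rfl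

theorem tentNorm_sq_ge (L : ℕ) : (L : ℝ) ^ 3 / 4 ≤ tentNorm L ^ 2 := by
  rw [tentNorm, Real.sq_sqrt (Finset.sum_nonneg fun t _ => sq_nonneg _)]
  calc (L : ℝ) ^ 3 / 4 ≤
      (Finset.Icc (-((L / 2 : ℕ) : ℤ)) (L / 2 : ℕ)).card • ((L : ℝ) / 2) ^ 2 := by
        rw [nsmul_eq_mul, Int.card_Icc]
        have hc : (L : ℝ) ≤
            ((((L / 2 : ℕ) : ℤ) + 1 - -((L / 2 : ℕ) : ℤ)).toNat : ℝ) := by
          exact_mod_cast (by omega :
            L ≤ (((L / 2 : ℕ) : ℤ) + 1 - -((L / 2 : ℕ) : ℤ)).toNat)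
        nlinarith [sq_nonneg ((L : ℝ) / 2)]
    _ ≤ ∑ t ∈ Finset.Icc (-((L / 2 : ℕ) : ℤ)) (L / 2 : ℕ), max 0 ((L : ℝ) - |(t : ℝ)|) ^ 2 := by
        refine Finset.card_nsmul_le_sum _ _ _ fun t ht => ?_
        obtain ⟨h1, h2⟩ := Finset.mem_Icc.1 ht
        have h3 : |(t : ℝ)| ≤ ((L / 2 : ℕ) : ℝ) := by
          have := (Int.cast_le (R := ℝ)).2 (abs_le.2 ⟨h1, h2⟩)
          rwa [Int.cast_abs, Int.cast_natCast] at this
        have h4 : ((L / 2 : ℕ) : ℝ) ≤ (L : ℝ) / 2 := Nat.cast_div_le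
        refine pow_le_pow_left₀ (by positivity) (le_trans ?_ (le_max_right _ _)) 2
        linarith
    _ ≤ _ := Finset.sum_le_sum_of_subset_of_nonneg (fun t ht => by
          rw [Finset.mem_Icc] at ht ⊢
          omega) fun t _ _ => sq_nonneg _

theorem tentNorm_pos {L : ℕ} (hL : 0 < L) : 0 < tentNorm L := by
  have h := tentNorm_sq_ge L
  have : (0 : ℝ) < (L : ℝ) ^ 3 / 4 := by positivity
  exact lt_of_le_of_ne (Real.sqrt_nonneg _) fun h0 => by
    rw [show tentNorm L = 0 from h0.symm] at h; linarith [h]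

theorem sum_sq_tent {L : ℕ} (hL : 0 < L) (a : ℤ) : ((sq (tent L a)).sum fun _ x => x) = 1 := by
  rw [sum_sq_eq (f := tent L a) (s := Finset.Icc (a - L) (a + L)) Finsupp.support_onFinset_subset]
  simp only [tent_apply, div_pow]
  rw [← Finset.sum_div, div_eq_one_iff_eq (pow_ne_zero _ (tentNorm_pos hL).ne'), tentNorm,
    Real.sq_sqrt (Finset.sum_nonneg fun t _ => sq_nonneg _)]
  refine Finset.sum_nbij' (fun t => t - a) (fun t => t + a) ?_ ?_ ?_ ?_ fun t _ => rfl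
  all_goals
    intro t ht
    simp at ht ⊢
    try omega

theorem tent_nonneg (L : ℕ) (a t : ℤ) : 0 ≤ tent L a t :=
  div_nonneg (le_max_left _ _) (Real.sqrt_nonneg _)

theorem abs_le_of_tent_ne_zero {L : ℕ} {t : ℤ} (h : tent L 0 t ≠ 0) : |t| ≤ (L : ℤ) := by
  have := Finset.mem_Icc.1 (Finsupp.support_onFinset_subset (Finsupp.mem_support_iff.2 h))
  rw [abs_le]
  omega

theorem mapDomain_sq_tent (L : ℕ) (s : ℤ) :
    mapDomain (fun v => v - s) (sq (tent L 0)) = sq (tent L (-s)) := by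
  ext t
  conv_lhs => rw [show t = (fun v : ℤ => v - s) (t + s) by simp]
  rw [Finsupp.mapDomain_apply (fun _ _ h => by simpa using h)]
  simp only [sq_apply, tent_apply, sub_zero, sub_neg_eq_add]

theorem sum_sq_tent_sub {L : ℕ} (hL : 0 < L) {a : ℤ} {r : ℕ} (ha : |a| ≤ (r : ℤ)) (hr : r ≤ L) :
    ((sq (tent L a - tent L 0)).sum fun _ x => x) ≤ 20 * (r : ℝ) ^ 2 / (L : ℝ) ^ 2 := by
  have hN := tentNorm_pos hL
  rw [sum_sq_eq (s := Finset.Icc (-((L + r : ℕ) : ℤ)) (L + r : ℕ))]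
  swap
  · refine Finsupp.support_sub.trans (Finset.union_subset ?_ ?_) <;>
      refine Finsupp.support_onFinset_subset.trans fun t ht => ?_ <;>
      rw [Finset.mem_Icc] at ht ⊢ <;> rw [abs_le] at ha <;> push_cast <;> omega
  refine le_trans (Finset.sum_le_card_nsmul _ _ ((r : ℝ) ^ 2 / tentNorm L ^ 2) fun t _ => ?_) ?_
  · rw [Finsupp.sub_apply, tent_apply, tent_apply, ← sub_div, div_pow]
    refine div_le_div_of_nonneg_right ?_ (sq_nonneg _)
    rw [← sq_abs]
    refine pow_le_pow_left₀ (abs_nonneg _) ((abs_max_sub_max_le_max _ _ _ _).trans ?_) 2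
    rw [sub_self, abs_zero, max_eq_right (abs_nonneg _),
      show (L : ℝ) - |((t - a : ℤ) : ℝ)| - ((L : ℝ) - |((t - 0 : ℤ) : ℝ)|) =
        |((t - 0 : ℤ) : ℝ)| - |((t - a : ℤ) : ℝ)| by ring]
    refine (abs_abs_sub_abs_le_abs_sub _ _).trans ?_
    push_cast
    rw [show (t : ℝ) - 0 - ((t : ℝ) - a) = a by ring, ← Int.cast_abs]
    exact_mod_cast ha
  rw [nsmul_eq_mul, Int.card_Icc]
  have hc : (((((L + r : ℕ) : ℤ) + 1 - -((L + r : ℕ) : ℤ)).toNat : ℕ) : ℝ) ≤ 5 * (L : ℝ) := by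
    exact_mod_cast (by omega :
      (((L + r : ℕ) : ℤ) + 1 - -((L + r : ℕ) : ℤ)).toNat ≤ 5 * L)
  have hL' : (0 : ℝ) < L := Nat.cast_pos.2 hL
  calc _ ≤ 5 * (L : ℝ) * ((r : ℝ) ^ 2 / ((L : ℝ) ^ 3 / 4)) := mul_le_mul hc
        (div_le_div_of_nonneg_left (sq_nonneg _) (by positivity) (tentNorm_sq_ge L))
        (by positivity) (by positivity)
    _ = _ := by field_simp; ring

end Vale.Agent.P196.Amen.Vec

namespace Vale.Agent.P196.SFT.One.Band

open Amen Amen.Vec

variable {S : SFT} {O : S.Odometer} {ξ : ∀ n, ZMod (O.Q n)} (B : Band S O ξ) {k : ℕ}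

theorem L_spec : 0 < B.L ∧ B.r ≤ B.L ∧ B.R ≤ 3 * B.L := by
  have := B.r_R
  have := B.r_pos
  simp only [L]
  omega

/-- The amplitudes of the coordinates. -/
def amp : B.I k → ℤ →₀ ℝ := Sum.elim (fun t => coin (B.θ t.2.2)) fun _ => tent B.L 0

theorem amp_prob (i : B.I k) : ((sq (B.amp i)).sum fun _ a => a) = 1 := by
  rcases i with t | a
  · exact sum_sq_coin _
  · exact sum_sq_tent B.L_spec.1 _

/-- The law of the coordinates. -/
def law (k : ℕ) : (B.I k → ℤ) →₀ ℝ := prodVec fun i => sq (B.amp i)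

theorem isProb_law : IsProb (B.law k) := isProb_prodVec fun i => isProb_sq (B.amp_prob i)

theorem good_of_mem {ω : B.I k → ℤ} (h : ω ∈ (B.law k).support) : B.Good ω := by
  have hsup : ∀ i, B.amp i (ω i) ≠ 0 := fun i => Finsupp.mem_support_iff.1
    (Finsupp.support_mapRange (mem_support_prodVec h i))
  refine ⟨fun t ht h0 => hsup (Sum.inl t) ?_, fun t ht => ?_, fun a => ?_⟩
  · rw [h0]
    show coin (B.θ t.2.2) 0 = 0
    rw [B.θ_eq_one ht, (coin_apply 1).2.1]
    simp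
  · refine B.site_of_θ_ne_zero fun h0 => hsup (Sum.inl t) ?_
    show coin (B.θ t.2.2) (ω (Sum.inl t)) = 0
    by_contra hne
    have := (coin_apply (B.θ t.2.2)).2.2 (Finsupp.mem_support_iff.2 hne)
    simp only [Finset.mem_insert, Finset.mem_singleton] at this
    rw [this.resolve_left ht, h0, (coin_apply 0).1] at hne
    simp at hne
  · exact abs_le_of_tent_ne_zero (hsup (Sum.inr a))

variable {g : Equiv.Perm (Fin k × S.X)} (hne : (O.fibre₁ ξ).Nonempty)
  (c : Coords g⁻¹ B.r) (cg : Coords g B.r)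

/-- The amplitudes of the moved coordinates. -/
def ampMoved : B.D k → ℤ →₀ ℝ :=
  Sum.elim (fun t => coin (B.θ (B.srcU hne c t).2.2)) fun a =>
    tent B.L (-(B.shift hne c (Sum.inr a)))

include cg in
theorem law_moved : Finsupp.mapDomain (B.moved hne c) (B.law k) =
    prodVec fun d => sq (B.ampMoved hne c d) := by
  rw [law]
  refine (mapDomain_prodVec (B.src_injective hne c cg) (fun d v => v - B.shift hne c d)
    fun i => B.amp_prob i).trans ?_
  congr 1
  funext d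
  rcases d with t | a
  · simp only [shift, Sum.elim_inl, sub_zero]
    exact Finsupp.mapDomain_id
  · rcases a with t | p <;> exact mapDomain_sq_tent _ _

theorem law_incl : Finsupp.mapDomain (fun ω d => ω (B.incl d)) (B.law k) =
    prodVec fun d => sq (B.amp (B.incl d)) := by
  rw [law]
  refine (mapDomain_prodVec B.incl_injective (fun _ v => v) fun i => B.amp_prob i).trans ?_
  congr 1
  funext d
  exact Finsupp.mapDomain_id

open scoped Classical in
/-- The cost of one coordinate. -/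
def cost : B.D k → ℝ :=
  Sum.elim (fun t => if B.Near t.1.2.2 B.ρ then 32 * (B.r : ℝ) ^ 2 / (B.ρ : ℝ) ^ 2 else 0)
    fun _ => 20 * (B.r : ℝ) ^ 2 / (B.L : ℝ) ^ 2

theorem amp_cost (d : B.D k) :
    ((sq (B.ampMoved hne c d - B.amp (B.incl d))).sum fun _ a => a) ≤ B.cost d := by
  rcases d with t | a
  · refine (sum_sq_coin_sub _ _).trans ?_
    have hb := (c.small (B.witU hne t)).2
    obtain ⟨h1, h2⟩ := B.θ_add (c := t.1.2.2) hb
    simp only [cost, Sum.elim_inl, srcU]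
    split_ifs with hn
    · have h3 := pow_le_pow_left₀ (abs_nonneg _) h1 2
      rw [sq_abs, div_pow, mul_pow] at h3
      rw [mul_div_assoc, sub_sq_comm]
      rw [mul_div_assoc] at h3
      nlinarith [h3]
    · rw [(h2 hn).1, (h2 hn).2]
      simp
  · have h : ∀ a', |-(B.shift hne c (Sum.inr a'))| ≤ (B.r : ℤ) := by
      rintro (t | p) <;> rw [abs_neg]
      · exact (c.small (B.witU hne t)).1
      · exact (c.small (B.witP p)).1
    have := sum_sq_tent_sub B.L_spec.1 (h a) B.L_spec.2.1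
    rcases a with t | p <;> exact this

open scoped Classical in
theorem card_near : ((Finset.univ.filter fun t : B.U k => B.Near t.2.2 B.ρ).card : ℝ) ≤
    k * O.Q B.n * B.E.card * (2 * B.ρ + 1) := by
  have hsub : (Finset.univ.filter fun t : B.U k => B.Near t.2.2 B.ρ) ⊆
      Finset.univ ×ˢ (Finset.univ ×ˢ (B.E ×ˢ Finset.Icc (-(B.ρ : ℤ)) B.ρ).image
        fun q => q.1 + (q.2 : ZMod (O.Q B.m))) := by
    intro t ht
    obtain ⟨e, he, d, hd, hc⟩ := (Finset.mem_filter.1 ht).2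
    simp only [Finset.mem_product, Finset.mem_univ, true_and, Finset.mem_image]
    exact ⟨(e, d), ⟨he, Finset.mem_Icc.2 (abs_le.1 hd)⟩, hc⟩
  have h := (Finset.card_le_card hsub).trans_eq (Finset.card_product _ _)
  rw [Finset.card_product, Finset.card_univ, Finset.card_univ, Fintype.card_fin, ZMod.card] at h
  have h' := h.trans (Nat.mul_le_mul_left _ (Nat.mul_le_mul_left _
    (Finset.card_image_le.trans_eq (Finset.card_product _ _))))
  rw [Int.card_Icc, show ((B.ρ : ℤ) + 1 - -(B.ρ : ℤ)).toNat = 2 * B.ρ + 1 by omega] at h'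
  calc _ ≤ ((k * (O.Q B.n * (B.E.card * (2 * B.ρ + 1))) : ℕ) : ℝ) := by exact_mod_cast h'
    _ = _ := by push_cast; ring

theorem card_P {C : ℕ} (hC : ∀ e ∈ B.E, Nat.card (B.pats e) ≤ C) :
    (Fintype.card (B.P k) : ℝ) ≤ B.E.card * (k * (2 * B.R + 1) * (2 * B.ρ + 1) * C) := by
  classical
  have h : Fintype.card (B.P k) ≤ B.E.card * (k * ((2 * B.R + 1) * ((2 * B.ρ + 1) * C))) := by
    rw [← Nat.card_eq_fintype_card, Nat.card_sigma]
    refine (Finset.sum_le_card_nsmul _ _ (k * ((2 * B.R + 1) * ((2 * B.ρ + 1) * C)))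
      fun e _ => ?_).trans_eq (by simp)
    simp only [Nat.card_eq_fintype_card, Fintype.card_prod, Fintype.card_fin, Fintype.card_coe,
      Int.card_Icc]
    rw [show ((B.ρ : ℤ) + 1 - -(B.ρ : ℤ)).toNat = 2 * B.ρ + 1 by omega,
      show ((B.R : ℤ) + 1 - -(B.R : ℤ)).toNat = 2 * B.R + 1 by omega]
    gcongr
    rw [← Nat.card_eq_fintype_card]
    exact hC e.1 e.2
  calc (Fintype.card (B.P k) : ℝ)
      ≤ ((B.E.card * (k * ((2 * B.R + 1) * ((2 * B.ρ + 1) * C))) : ℕ) : ℝ) := by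
        exact_mod_cast h
    _ = _ := by push_cast; ring

theorem sum_cost {C : ℕ} {δ : ℝ} (hC : ∀ e ∈ B.E, Nat.card (B.pats e) ≤ C)
    (h1 : (O.Q B.n : ℝ) * B.E.card ≤ δ * B.ρ)
    (h2 : (O.Q B.n : ℝ) * O.Q B.m ≤ δ * (B.R : ℝ) ^ 2)
    (h3 : (B.E.card : ℝ) * B.ρ * C ≤ δ * B.R) :
    ∑ d, B.cost (k := k) d ≤ 2000 * k * (B.r : ℝ) ^ 2 * δ := by
  classical
  have hρ : (1 : ℝ) ≤ B.ρ := by exact_mod_cast (show 1 ≤ B.ρ by have := B.w_ρ; omega)
  have hR : (1 : ℝ) ≤ B.R := by exact_mod_cast (show 1 ≤ B.R by have := B.r_R; omega)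
  have hL : (0 : ℝ) < B.L := Nat.cast_pos.2 B.L_spec.1
  have hRL : (B.R : ℝ) ≤ 3 * B.L := by exact_mod_cast B.L_spec.2.2
  set a := 20 * (B.r : ℝ) ^ 2 / (B.L : ℝ) ^ 2
  have ha : a ≤ 180 * (B.r : ℝ) ^ 2 / (B.R : ℝ) ^ 2 := by
    rw [div_le_div_iff₀ (by positivity) (by positivity)]
    nlinarith [mul_le_mul_of_nonneg_left (pow_le_pow_left₀ (by positivity) hRL 2)
      (sq_nonneg (B.r : ℝ))]
  rw [Fintype.sum_sum_type]
  simp only [cost, Sum.elim_inl, Sum.elim_inr, Finset.sum_const, Finset.card_univ, nsmul_eq_mul]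
  rw [← Finset.sum_filter, Finset.sum_const, nsmul_eq_mul]
  have hc1 : ((Finset.univ.filter fun t : B.DU k => B.Near t.1.2.2 B.ρ).card : ℝ) ≤
      k * O.Q B.n * B.E.card * (3 * B.ρ) := by
    refine le_trans ?_ (le_trans B.card_near (mul_le_mul_of_nonneg_left (by linarith)
      (by positivity)))
    exact_mod_cast Finset.card_le_card_of_injOn Subtype.val
      (fun t ht => by simpa using ht) Subtype.val_injective.injOn
  have hU : (Fintype.card (B.DU k) : ℝ) ≤ k * (δ * (B.R : ℝ) ^ 2) := by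
    calc (Fintype.card (B.DU k) : ℝ) ≤ Fintype.card (B.U k) := by
          exact_mod_cast Fintype.card_subtype_le _
      _ = k * ((O.Q B.n : ℝ) * O.Q B.m) := by
          simp [ZMod.card]
      _ ≤ _ := mul_le_mul_of_nonneg_left h2 (Nat.cast_nonneg k)
  have hP : (Fintype.card (B.DP k) : ℝ) ≤ 9 * k * (δ * (B.R : ℝ) ^ 2) := by
    calc (Fintype.card (B.DP k) : ℝ) ≤ Fintype.card (B.P k) := by
          exact_mod_cast Fintype.card_subtype_le _
      _ ≤ B.E.card * (k * (3 * B.R) * (3 * B.ρ) * C) := by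
          refine (B.card_P hC).trans ?_
          gcongr <;> linarith
      _ = 9 * k * ((B.E.card : ℝ) * B.ρ * C * B.R) := by ring
      _ ≤ 9 * k * (δ * B.R * B.R) := by gcongr
      _ = _ := by ring
  have e1 : ((Finset.univ.filter fun t : B.DU k => B.Near t.1.2.2 B.ρ).card : ℝ) *
      (32 * (B.r : ℝ) ^ 2 / (B.ρ : ℝ) ^ 2) ≤ 96 * k * (B.r : ℝ) ^ 2 * δ := by
    refine (mul_le_mul_of_nonneg_right hc1 (by positivity)).trans ?_
    rw [show (k : ℝ) * O.Q B.n * B.E.card * (3 * B.ρ) * (32 * (B.r : ℝ) ^ 2 / (B.ρ : ℝ) ^ 2) =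
      96 * k * (B.r : ℝ) ^ 2 * ((O.Q B.n : ℝ) * B.E.card / B.ρ) by field_simp; ring]
    exact mul_le_mul_of_nonneg_left ((div_le_iff₀ (by linarith)).2 h1) (by positivity)
  have e2 : (Fintype.card (B.DU k ⊕ B.DP k) : ℝ) * a ≤ 1800 * k * (B.r : ℝ) ^ 2 * δ := by
    rw [Fintype.card_sum, Nat.cast_add]
    refine (mul_le_mul (add_le_add hU hP) ha (by positivity) (le_trans (by positivity)
      (add_le_add hU hP))).trans_eq ?_
    field_simp
    ring
  have hδ : 0 ≤ δ := by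
    by_contra hn
    nlinarith [mul_nonneg (Nat.cast_nonneg (α := ℝ) (O.Q B.n)) (Nat.cast_nonneg (α := ℝ) (O.Q B.m))]
  nlinarith [show 0 ≤ (k : ℝ) * (B.r : ℝ) ^ 2 * δ by positivity]

theorem n1_moved {C : ℕ} {δ : ℝ} (hC : ∀ e ∈ B.E, Nat.card (B.pats e) ≤ C)
    (h1 : (O.Q B.n : ℝ) * B.E.card ≤ δ * B.ρ)
    (h2 : (O.Q B.n : ℝ) * O.Q B.m ≤ δ * (B.R : ℝ) ^ 2)
    (h3 : (B.E.card : ℝ) * B.ρ * C ≤ δ * B.R) :
    n1 (prodVec (fun d => sq (B.ampMoved hne c d)) - prodVec fun d => sq (B.amp (B.incl d))) ≤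
      2 * √(2000 * k * (B.r : ℝ) ^ 2 * δ) := by
  refine (n1_prodVec_sub_le (δ := B.cost) (fun d => ?_) (fun d => B.amp_prob _) (fun d a => ?_)
    (fun d a => ?_) (B.amp_cost hne c)).trans
    (mul_le_mul_of_nonneg_left (Real.sqrt_le_sqrt (B.sum_cost hC h1 h2 h3)) zero_le_two)
  · rcases d with t | p
    · exact sum_sq_coin _
    · exact sum_sq_tent B.L_spec.1 _
  · rcases d with t | p
    · exact coin_nonneg (B.θ_mem _).1 (B.θ_mem _).2 _
    · exact tent_nonneg _ _ _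
  · rcases d with t | p
    · exact coin_nonneg (B.θ_mem _).1 (B.θ_mem _).2 _
    · exact tent_nonneg _ _ _

end Vale.Agent.P196.SFT.One.Band
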